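import Vale.Agent.P253.Main

namespace Vale.Agent.Results.P253.Reinhardt

open Vale.Agent.P253 Set

/-- Yau's conjecture for complete torus-invariant Kaehler metrics on Reinhardt sets. -/
theorem result :
    ∀ (n : ℕ) (D : Set (Fin n → ℂ)) (g : (Fin n → ℂ) → Matrix (Fin n) (Fin n) ℂ),
      IsOpen D → D.Nonempty → IsInvariantKahler D g → IsCompleteMetric D g →
      ((∀ z ∈ D, ∀ X Y, 0 ≤ bisec g z X Y) →
        (∀ p ∈ D, ∀ q : Fin n → ℂ, (∀ i, p i = 0 ↔ q i = 0) → q ∈ D) ∧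
          {q : Fin n → ℂ | ∀ i, q i ≠ 0} ⊆ D ∧ ((0 : Fin n → ℂ) ∈ D → D = univ)) ∧
      ((∀ z ∈ D, ∀ X Y, X ≠ 0 → Y ≠ 0 → 0 < bisec g z X Y) →
        (∀ i j, i ≠ j → ∃ p ∈ D, p i * p j = 0) → D = univ) := by
  intro n D g hD hne hg hc
  exact ⟨fun hR => ⟨fun p hp q h => mem_of_same_zeros hD hg hc hR hp h,
      fun q hq => torus_subset hD hne hg hc hR hq, eq_univ_of_zero_mem hD hg hc hR⟩,
    fun hR hmeet => eq_univ_of_pos hD hne hg hc hR hmeet⟩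

end Vale.Agent.Results.P253.Reinhardt
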